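import Vale.Agent.P137.C.Main

namespace Vale.Agent.Results.P137.BothFull

/-- Endpoint gradient bounds for the centered and for the uncentered Hardy-Littlewood maximal
operator, on all of `W^{1,1}`, in every dimension. -/
theorem result (d : ℕ) (hd : 0 < d) :
    ∃ C : ℝ, Vale.Agent.P137.CenteredBound (EuclideanSpace ℝ (Fin d)) C ∧
      Vale.Agent.P137.UncenteredBound (EuclideanSpace ℝ (Fin d)) C :=
  Vale.Agent.P137.bothBound d hd

end Vale.Agent.Results.P137.BothFull
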