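import Vale.Agent.P137.H838.Main2

namespace Vale.Agent.Results.P137.BothHomogeneous

/-- Endpoint bounds for the centered and for the uncentered Hardy-Littlewood maximal operator in
every dimension, with one constant: the gradient bounds on all of `W^{1,1}`, the gradient bounds
for all locally integrable functions with an integrable weak gradient, and the variation bounds
for all locally integrable functions of finite total variation. -/
theorem result (d : ℕ) (hd : 0 < d) :
    ∃ C : ℝ, Vale.Agent.P137.CenteredBound (EuclideanSpace ℝ (Fin d)) C ∧
      Vale.Agent.P137.UncenteredBound (EuclideanSpace ℝ (Fin d)) C ∧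
      Vale.Agent.P137.CenteredHom d C ∧ Vale.Agent.P137.UncenteredHom d C ∧
      Vale.Agent.P137.CenteredVariation d C ∧ Vale.Agent.P137.UncenteredVariation d C :=
  Vale.Agent.P137.BV.hom_bounds d hd

end Vale.Agent.Results.P137.BothHomogeneous
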