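import Vale.Agent.P137.C.Main

namespace Vale.Agent.Results.P137.CenteredFull

/-- Endpoint gradient bound for the centered Hardy-Littlewood maximal operator: in every
dimension, on all of `W^{1,1}`. -/
theorem result (d : ℕ) (hd : 0 < d) :
    ∃ C : ℝ, Vale.Agent.P137.CenteredBound (EuclideanSpace ℝ (Fin d)) C :=
  Vale.Agent.P137.centeredBound d hd

end Vale.Agent.Results.P137.CenteredFull
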